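import Vale.Agent.P281.H511.Gen.TVFin
import Vale.Agent.P281.H64.TK.SpecT

/-!
# P281, project T-T (helper511): Campana's inequality for fibrations in complex tori
-/

open Set Filter Metric Module Vale.Agent.P281 Vale.Agent.P281.H713
open Vale.Agent.P281.H64.Gen Vale.Agent.P281.H64.TK
open Vale.Agent.P272.K (Chart IsKahler)
open Vale.Agent.P281.H64 (Cm IsProperFibration)
open Vale.Agent.P281.H713.TZ Vale.Agent.P281.MF
open Vale.Agent.P281.H64.Thin (IsThinSet)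
open Vale.Agent.P281.H713.TZ.S (OrbLe.kapLe)
open scoped Topology ContDiff Manifold

noncomputable section

namespace Vale.Agent.P281.H511.TT

/-- a torus is not degenerate -/
theorem nDeg_of_tor {n p d : ℕ} {Z Y : Type} [TopologicalSpace Z] [ChartedSpace (Cm n) Z]
    [TopologicalSpace Y] [ChartedSpace (Cm p) Y] {f : Z → Y} {y : Y}
    (h : IsTorAt n p d f y) : NDeg n p d 0 f y := by
  obtain ⟨E, Γ, _, _, _, _, _, _, 𝓕, q, χ, t, ht, hM, hty, g, hg, hmin⟩ := h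
  have hE : Nonempty E := inferInstance
  obtain ⟨e⟩ := hE
  obtain ⟨γ, i, z, hz, -⟩ := 𝓕.cover t ht e
  have hz3 : z ∈ ball (0 : Cm d) 3 := by
    rw [mem_ball_zero_iff]
    linarith
  refine ⟨E, Γ, inferInstance, inferInstance, inferInstance, inferInstance, inferInstance,
    inferInstance, 𝓕, q, χ, t, ht, hM, hty, i, z, hz3, fun _ => g, fun _ a => hg a, hmin i z hz3,
    fun b => ⟨0, Subsingleton.elim _ _⟩⟩

section
variable {n p : ℕ} {X Y F : Type} [TopologicalSpace X] [T2Space X] [ConnectedSpace X]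
  [ChartedSpace (Cm n) X] [IsManifold 𝓘(ℂ, Cm n) ω X] [TopologicalSpace Y] [T2Space Y]
  [ChartedSpace (Cm p) Y] [IsManifold 𝓘(ℂ, Cm p) ω Y]
variable {E₀ : Type} [NormedAddCommGroup E₀] [NormedSpace ℂ E₀] [FiniteDimensional ℂ E₀]
  [TopologicalSpace F] [ChartedSpace E₀ F] [IsManifold 𝓘(ℂ, E₀) ω F]

/-- the inequality for families of tori -/
theorem main_torus {d m : ℕ} (hd : 0 < d) (hn : n = p + d) {f : X → Y}
    (hf : ContMDiff 𝓘(ℂ, Cm n) 𝓘(ℂ, Cm p) ω f) {S : Set Y} (hS : IsSmallSet (Cm p) S)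
    (hP : IsProperFibration (n := n) (p := p) f S)
    {Δ : Set X → ℝ} (hsnc : J.IsSNC (Cm n) Δ) {Q : (Fin m → ℝ) → (Fin m → ℝ) → ℝ} {ι : Type}
    {U : ι → Set Y} {π : ι → Y → ((Fin m → ℝ) ≃L[ℝ] EuclideanSpace ℂ (Fin d))}
    {u : ι → Y → EuclideanSpace ℂ (Fin d) → X}
    (hT : IsTorusFamily (Cm n) (Cm p) f S Q U π u) {y : Y} (hy : y ∉ S) (i : F → X)
    (hk : TZ.S.kodR (Cm n) E₀ i Δ ≤ 0) :
    TZ.S.kodR (Cm n) E₀ i Δ + TZ.S.kodF n p Δ (id : X → X) f ≤ TZ.S.kodX (Cm n) Δ := by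
  rw [TZ.S.kodF_eq]
  unfold TZ.S.kodR TZ.S.kodX at *
  rw [JB.kod_eq] at hk
  rw [JB.kod_eq, JB.kod_eq]
  have hΔ0 : ∀ D, 0 ≤ Δ D := fun D => (ISO.snc01 (JB.snc hsnc) D).1
  have hfh : ∀ x, HolM (Cm n) (Cm p) f x := fun x => hf x
  have hfr : finrank ℂ (EuclideanSpace ℂ (Fin d)) = d := finrank_euclideanSpace_fin
  have hm : 0 < m := by
    obtain ⟨a₀, ha₀⟩ := (hT.cover y).1 hy
    exact pos_of_period (π a₀ y) (by rw [hfr]; exact hd)
  let e₀ : Cm n ≃L[ℂ] (Cm p × EuclideanSpace ℂ (Fin d)) :=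
    ContinuousLinearEquiv.ofFinrankEq (by
      rw [Module.finrank_prod, hfr, fr, fr, hn])
  refine kodF_add_le fun j₁ j₂ h₁ h₂ => ?_
  have hj : j₁ = 0 := by
    have h3 : (((j₁ : ℕ) : ℕ∞) : WithBot ℕ∞) ≤ 0 := le_trans (by
      unfold kod
      exact le_iSup₂_of_le j₁ h₁ le_rfl) hk
    have h4 : ((j₁ : ℕ∞) : WithBot ℕ∞) ≤ ((0 : ℕ∞) : WithBot ℕ∞) := h3
    rw [WithBot.coe_le_coe] at h4
    exact Nat.le_zero.1 (by exact_mod_cast h4)
  rw [hj, zero_add]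
  exact kodGE_allG (r := 0) H511.Gen.isBigOpen_id hf hS
    (fun x hx => hP.submersive x hx) e₀ hsnc hsnc (H511.Gen.isRestriction_id Δ)
    (fun y hy => hasForms_torus hm hT hfh e₀ hΔ0 hy) h₂

end

/-- **T-T** -/
theorem tt (hAB : ABStmt) (hDeg : DegStmt) (hToc : TocStmt) (hFam : TFamStmt)
    (hFib : TFibStmt) (hKod : TKodStmt) : TTStmt := by
  intro p d X Y _ _ _ _ f Δ hd h hw
  obtain ⟨w, hw⟩ := hw
  obtain ⟨⟨_, _⟩, _, _, ⟨_, _⟩, hf, hc, hΔ⟩ := h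
  have hsurj : Function.Surjective f := fun y => (hc y).nonempty
  have : PreconnectedSpace Y := by
    rw [preconnectedSpace_iff_univ, ← hsurj.range_eq]
    exact isPreconnected_range hf.continuous
  obtain ⟨S₁, hS₁, hP⟩ := H364.crit H150.Gen.img (p + d) p X Y f hf hc
  have h1 : IsProperFibration (n := p + d) (p := p) f S₁ := hP S₁ subset_rfl hS₁.1
  obtain ⟨S, hSS, hS, hN⟩ : ∃ S, S₁ ⊆ S ∧ IsSmallSet (Cm p) S ∧
      ((∃ y ∉ S₁, NDeg (p + d) p d 0 f y) → ∀ y ∉ S, NDeg (p + d) p d 0 f y) := by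
    by_cases h : ∃ y ∉ S₁, NDeg (p + d) p d 0 f y
    · obtain ⟨S', g1, g2, g3⟩ := hDeg p d 0 X Y f S₁ w hd hf hsurj h1 hS₁
        (H383.Gen.compl p Y S₁ hS₁).2 hw h
      exact ⟨S', g1, g2, fun _ => g3⟩
    · exact ⟨S₁, subset_rfl, hS₁, fun g => absurd g h⟩
  have hPS : IsProperFibration (n := p + d) (p := p) f S := hP S hSS hS.1
  have hco := (H383.Gen.compl p Y S hS).2
  obtain ⟨H, hH, hSH⟩ := hS.2
  refine ⟨H, hH, ?_⟩
  intro y hyH F _ _ i hi hiinj hpar hΔi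
  have hyS : y ∉ S := by
    intro h
    obtain ⟨k, hk⟩ := mem_iUnion.1 (hSH h)
    exact hyH k hk
  have hTor : IsTorAt (p + d) p d f y :=
    hFib p d X Y f S₁ hd hf h1 hAB y (fun h => hyS (hSS h)) F i hi hiinj hpar
  have htor := hToc p d X Y f S w hd hf hPS hco hw
    (hN ⟨y, fun h => hyS (hSS h), nDeg_of_tor hTor⟩) ⟨y, hyS, hTor⟩
  obtain ⟨m, Q, ι, U, π, u, hT⟩ := hFam p d X Y f S w hd hf hPS hco hw htor ⟨y, hyS⟩
  obtain ⟨_, _, _, hi, hinj, hiy⟩ := hi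
  have hsub : ∃ z, Function.Surjective (mfderiv 𝓘(ℂ, Cm (p + d)) 𝓘(ℂ, Cm p) f z) := by
    obtain ⟨t⟩ : Nonempty F := inferInstance
    exact ⟨i t, h1.submersive _ (by rw [hiy]; exact fun h => hyS (hSS h))⟩
  have hmain : TZ.S.kodR (Cm (p + d)) (Cm d) i Δ + TZ.S.kodF (p + d) p Δ (id : X → X) f ≤
      TZ.S.kodX (Cm (p + d)) Δ :=
    main_torus hd rfl hf hS hPS hΔ hT hyS i (hKod (p + d) d X F i Δ hd hi hpar hΔi)
  have hkap : TZ.S.KapLe (Cm (p + d)) (Cm p) f Δ (TZ.S.kodF (p + d) p Δ (id : X → X) f) := by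
    refine OrbLe.kapLe ?_
    intro Γ hΓ₁ hΓ₂ hΓ₃ hnc hmor
    rw [TZ.S.kodF_eq]
    exact H713.CO.comp_g H413.TZ.genPart hΔ H511.Gen.isBigOpen_id hf hsub ⟨hΓ₁, hΓ₂, hΓ₃⟩ hnc hΔ
      (H511.Gen.isRestriction_id Δ) hmor
  refine ⟨⟨hmain, hkap⟩, fun hne => ?_⟩
  obtain ⟨g1, g2, g3, g4, g5⟩ := H399.Gen.base H303.Gen.irr H969.Gen.fin (H364.crit H150.Gen.img)
    H383.Gen.compl (p + d) p X Y f Δ hf hc hΔ hne _ rfl
  have hk := (hkap _ g1 g2 g3 g4 g5).2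
    ⟨X, Y, inferInstance, inferInstance, inferInstance, inferInstance, f, Δ⟩ X inferInstance
    inferInstance f Δ (Relation.EqvGen.refl _) rfl
  exact (add_le_add le_rfl hk).trans hmain

end Vale.Agent.P281.H511.TT
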